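import Vale.Agent.P027.R5.H788.Nm

set_option linter.all false

/-! Representations by a form in four variables. -/

namespace Vale.Agent.P027.D5

open Vale.Agent.P345 Vale.Agent.P027

theorem sq_neg_one_prod (S : Finset ℕ) : (∀ q ∈ S, q.Prime ∧ q % 4 = 1) →
    IsSquare (-1 : ZMod (∏ q ∈ S, q)) := by
  induction S using Finset.induction_on with
  | empty =>
    intro _
    rw [Finset.prod_empty]
    exact ⟨0, Subsingleton.elim _ _⟩
  | insert a S ha ih =>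
    intro h
    rw [Finset.prod_insert ha]
    obtain ⟨hp, h4⟩ := h a (Finset.mem_insert_self a S)
    have : Fact a.Prime := ⟨hp⟩
    refine ZMod.isSquare_neg_one_mul ?_ ?_ (ih fun q hq => h q (Finset.mem_insert_of_mem hq))
    · refine Nat.Coprime.prod_right (fun q hq => ?_)
      obtain ⟨hq', -⟩ := h q (Finset.mem_insert_of_mem hq)
      rw [Nat.coprime_primes hp hq']
      rintro rfl
      exact ha hq
    · exact ZMod.exists_sq_eq_neg_one_iff.2 (by omega)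

theorem exists_beta {d : ℕ} (hd : d ≠ 0) (h4 : ∀ q : ℕ, q.Prime → q ∣ d → q % 4 = 1) :
    ∃ β : ℕ, β % 4 = 1 ∧ IsSquare (-1 : ZMod β) ∧
      (∀ q : ℕ, q.Prime → (q % 8 = 3 ∨ q % 8 = 5) → Even ((β * d).factorization q)) ∧
      (∀ n : ℕ, (∀ q : ℕ, q.Prime → q % 8 = 5 → q ∣ d → q ∣ n) → β ∣ n) := by
  classical
  set S := d.primeFactors.filter (fun q => q % 8 = 5 ∧ Odd (d.factorization q)) with hS
  have hmem : ∀ q ∈ S, q.Prime ∧ q ∣ d ∧ q % 8 = 5 ∧ Odd (d.factorization q) := by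
    intro q hq
    rw [hS, Finset.mem_filter, Nat.mem_primeFactors] at hq
    exact ⟨hq.1.1, hq.1.2.1, hq.2.1, hq.2.2⟩
  have hne : ∀ q ∈ S, q ≠ 0 := fun q hq => (hmem q hq).1.ne_zero
  have h0 : (∏ q ∈ S, q) ≠ 0 := Finset.prod_ne_zero_iff.2 hne
  refine ⟨∏ q ∈ S, q, ?_, ?_, ?_, ?_⟩
  · refine Finset.prod_induction (fun q => q) (fun n => n % 4 = 1) (fun a b ha hb => ?_) rfl
      (fun q hq => ?_)
    · rw [Nat.mul_mod, ha, hb]
    · have := (hmem q hq).2.2.1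
      omega
  · exact sq_neg_one_prod S (fun q hq => ⟨(hmem q hq).1, by have := (hmem q hq).2.2.1; omega⟩)
  · intro q hq h35
    rw [Nat.factorization_mul h0 hd, Finsupp.add_apply, Nat.factorization_prod hne,
      Finsupp.finset_sum_apply]
    have e : ∀ x ∈ S, (x.factorization) q = if x = q then 1 else 0 := by
      intro x hx
      rw [(hmem x hx).1.factorization, Finsupp.single_apply]
    rw [Finset.sum_congr rfl e, Finset.sum_ite_eq']
    split_ifs with h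
    · obtain ⟨k, hk⟩ := (hmem q h).2.2.2
      exact ⟨k + 1, by omega⟩
    · rw [zero_add]
      by_contra hodd
      rw [Nat.not_even_iff_odd] at hodd
      have hqd : q ∣ d := Nat.dvd_of_factorization_pos (by
        intro h1; rw [h1] at hodd; exact absurd hodd (by decide))
      have := h4 q hq hqd
      apply h
      rw [hS, Finset.mem_filter, Nat.mem_primeFactors]
      exact ⟨⟨hq, hqd, hd⟩, by omega, hodd⟩
  · intro n hn
    refine Finset.prod_primes_dvd n (fun q hq => (hmem q hq).1.prime) (fun q hq => ?_)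
    obtain ⟨h1, h2, h3, -⟩ := hmem q hq
    exact hn q h1 h3 h2

/-- the auxiliary prime -/
theorem exists_aux {β : ℕ} (hβ : β % 4 = 1) (hsq : IsSquare (-1 : ZMod β)) {m Z : ℤ}
    (hm : m % 8 = 1) (hmZ : (β : ℤ) ∣ m - Z ^ 2) (hZ : IsCoprime (β : ℤ) Z) :
    ∃ p : ℕ, p.Prime ∧ p % 8 = 1 ∧ ∃ x z : ℚ, z ≠ 0 ∧ 2 * (β : ℚ) * p = x ^ 2 + m * z ^ 2 := by
  have hβodd : Odd β := Nat.odd_iff.2 (by omega)
  have hm0 : m ≠ 0 := by rintro rfl; norm_num at hm
  set n := m.natAbs with hn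
  have hn0 : n ≠ 0 := Int.natAbs_ne_zero.2 hm0
  have hn8 : n % 8 = 1 ∨ n % 8 = 7 := by omega
  have hnodd : Odd n := Nat.odd_iff.2 (by omega)
  have hβm : IsCoprime (β : ℤ) m := by
    have h1 : IsCoprime (β : ℤ) (Z ^ 2) := hZ.pow_right
    obtain ⟨k, hk⟩ := hmZ
    have h2 : m = Z ^ 2 + β * k := by linarith
    rw [h2]
    exact h1.add_mul_left_right k
  have hβn : Nat.Coprime β n := by
    have := Int.isCoprime_iff_gcd_eq_one.1 hβm
    rwa [Int.gcd, Int.natAbs_natCast] at this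
  have h2n : Nat.Coprime (2 * β) n := Nat.Coprime.mul_left (Nat.coprime_two_left.2 hnodd) hβn
  have h8n : Nat.Coprime 8 n := by
    rw [show (8 : ℕ) = 2 ^ 3 by norm_num]
    exact (Nat.coprime_two_left.2 hnodd).pow_left 3
  -- the residue class
  obtain ⟨b, hb⟩ : ∃ b : ℕ, 2 * β * b ≡ 1 [MOD n] := by
    obtain ⟨k, hk1, hk2⟩ := Nat.chineseRemainder h2n 0 1
    obtain ⟨b, rfl⟩ := (Nat.modEq_zero_iff_dvd).1 hk1
    exact ⟨b, hk2⟩
  obtain ⟨a, ha8, han⟩ := Nat.chineseRemainder h8n 1 b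
  have hacop : Nat.Coprime a (8 * n) := by
    refine Nat.Coprime.mul_right ?_ ?_
    · have h1 : a % 8 = 1 := ha8
      rw [show (8 : ℕ) = 2 ^ 3 by norm_num]
      refine Nat.Coprime.pow_right 3 ?_
      exact (Nat.coprime_two_right.2 (Nat.odd_iff.2 (by omega)))
    · have h1 : 2 * β * a ≡ 1 [MOD n] := (Nat.ModEq.mul_left (2 * β) han).trans hb
      have h2 : Nat.Coprime (2 * β * a) n := by
        rw [Nat.Coprime, h1.gcd_eq, Nat.gcd_one_left]
      exact Nat.Coprime.coprime_mul_left h2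
  obtain ⟨p, hpgt, hp, hpa⟩ := Nat.forall_exists_prime_gt_and_modEq (n + 2 * β + 8)
    (Nat.mul_ne_zero (by norm_num) hn0) hacop
  have hp8 : p % 8 = 1 := ((hpa.of_mul_right n).trans ha8 : p ≡ 1 [MOD 8])
  have hpn : p ≡ b [MOD n] := (hpa.of_mul_left 8).trans han
  have hpβ : 2 * β * p ≡ 1 [MOD n] := (Nat.ModEq.mul_left (2 * β) hpn).trans hb
  have hpodd : Odd p := Nat.odd_iff.2 (by omega)
  have hpZ : ((2 * β * p : ℕ) : ℤ) ≡ 1 [ZMOD n] := by exact_mod_cast (Int.natCast_modEq_iff.2 hpβ)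
  -- Jacobi symbols
  have hJ2 : jacobiSym 2 n = 1 := by
    rw [jacobiSym.at_two hnodd, ZMod.χ₈_nat_eq_if_mod_eight]
    have h1 : ¬ n % 2 = 0 := by omega
    rw [if_neg h1, if_pos hn8]
  have hJm : ∀ {k : ℕ}, Odd k → jacobiSym (-1) k = 1 → jacobiSym (n : ℤ) k = jacobiSym m k := by
    intro k hk hk1
    rcases Int.natAbs_eq m with h | h
    · rw [hn]; nth_rw 2 [h]
    · have h1 : ((m.natAbs : ℕ) : ℤ) = -1 * m := by omega
      rw [hn, h1, jacobiSym.mul_left, hk1, one_mul]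
  have hJβ1 : jacobiSym (-1) β = 1 := by
    rw [jacobiSym.at_neg_one hβodd, ZMod.χ₄_nat_one_mod_four hβ]
  have hJp1 : jacobiSym (-1) p = 1 := by
    rw [jacobiSym.at_neg_one hpodd, ZMod.χ₄_nat_one_mod_four (by omega)]
  have hJβ : jacobiSym (β : ℤ) n = 1 := by
    rw [jacobiSym.quadratic_reciprocity_one_mod_four hβ hnodd, hJm hβodd hJβ1]
    have h1 : m % (β : ℤ) = (Z ^ 2) % (β : ℤ) := (Int.modEq_iff_dvd.2 hmZ).symm
    rw [jacobiSym.mod_left' h1]
    refine jacobiSym.sq_one' ?_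
    exact Int.isCoprime_iff_gcd_eq_one.1 hZ.symm
  have hJp : jacobiSym (p : ℤ) n = 1 := by
    have h1 : jacobiSym ((2 * β * p : ℕ) : ℤ) n = jacobiSym 1 n := jacobiSym.mod_left' hpZ
    rw [jacobiSym.one_left] at h1
    push_cast at h1
    rw [jacobiSym.mul_left, jacobiSym.mul_left, hJ2, hJβ, one_mul, one_mul] at h1
    exact h1
  have hJmp : jacobiSym (-m) p = 1 := by
    have h1 : (-m : ℤ) = -1 * m := by ring
    rw [h1, jacobiSym.mul_left, hJp1, one_mul, ← hJm hpodd hJp1,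
      ← jacobiSym.quadratic_reciprocity_one_mod_four (by omega) hnodd]
    exact hJp
  obtain ⟨t2, ht2⟩ := exists_sq_sub_of_jacobi hp hJmp
  -- square root modulo `β`
  obtain ⟨t1, ht1⟩ : ∃ t1 : ℤ, (β : ℤ) ∣ t1 ^ 2 - (-m) := by
    obtain ⟨c, hc⟩ := hsq
    obtain ⟨i, rfl⟩ := ZMod.intCast_surjective c
    have h1 : (β : ℤ) ∣ i ^ 2 + 1 := by
      rw [← ZMod.intCast_zmod_eq_zero_iff_dvd]
      push_cast
      rw [pow_two, ← hc]; ring
    refine ⟨i * Z, ?_⟩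
    have e : (i * Z) ^ 2 - (-m) = (i ^ 2 + 1) * Z ^ 2 + (m - Z ^ 2) := by ring
    rw [e]
    exact dvd_add (h1.mul_right _) hmZ
  have hβp : IsCoprime (β : ℤ) (p : ℤ) := by
    rw [Nat.isCoprime_iff_coprime]
    rw [Nat.coprime_comm, Nat.Prime.coprime_iff_not_dvd hp]
    intro h
    have := Nat.le_of_dvd (by omega) h
    omega
  obtain ⟨u, v, huv⟩ := hβp
  obtain ⟨t, ht⟩ : ∃ t : ℤ, ((2 * β * p : ℕ) : ℤ) ∣ t ^ 2 - (-m) := by
    set s := t1 * (v * p) + t2 * (u * β) with hs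
    have hs1 : (β : ℤ) ∣ s ^ 2 - (-m) := by
      have h1 : s - t1 = β * (u * (t2 - t1)) := by
        rw [hs]; linear_combination t1 * huv
      have e : s ^ 2 - (-m) = (s - t1) * (s + t1) + (t1 ^ 2 - (-m)) := by ring
      rw [e]
      exact dvd_add (Dvd.dvd.mul_right ⟨_, h1⟩ _) ht1
    have hs2 : (p : ℤ) ∣ s ^ 2 - (-m) := by
      have h1 : s - t2 = p * (v * (t1 - t2)) := by
        rw [hs]; linear_combination t2 * huv
      have e : s ^ 2 - (-m) = (s - t2) * (s + t2) + (t2 ^ 2 - (-m)) := by ring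
      rw [e]
      exact dvd_add (Dvd.dvd.mul_right ⟨_, h1⟩ _) ht2
    have hs3 : (β : ℤ) * p ∣ s ^ 2 - (-m) := IsCoprime.mul_dvd ⟨u, v, huv⟩ hs1 hs2
    have key : ∀ w : ℤ, Odd w → (β : ℤ) * p ∣ w ^ 2 - (-m) →
        ((2 * β * p : ℕ) : ℤ) ∣ w ^ 2 - (-m) := by
      intro w hw hd
      have h1 : (2 : ℤ) ∣ w ^ 2 - (-m) := by
        obtain ⟨k, rfl⟩ := hw
        have : (2 * k + 1) ^ 2 - (-m) = 2 * (2 * k ^ 2 + 2 * k) + (1 + m) := by ring
        rw [this]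
        exact dvd_add (dvd_mul_right _ _) (by omega)
      have h2 : IsCoprime (2 : ℤ) ((β : ℤ) * p) := by
        have h3 : Nat.Coprime 2 (β * p) := Nat.coprime_two_left.2 (hβodd.mul hpodd)
        have := Nat.isCoprime_iff_coprime.2 h3
        exact_mod_cast this
      have h3 := IsCoprime.mul_dvd h2 h1 hd
      push_cast
      rwa [mul_assoc]
    rcases Int.even_or_odd s with h | h
    · refine ⟨s + β * p, key _ ?_ ?_⟩
      · have h1 : Odd ((β : ℤ) * p) := by exact_mod_cast hβodd.mul hpodd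
        exact h.add_odd h1
      · have e : (s + β * p) ^ 2 - (-m) = (β * p) * (2 * s + β * p) + (s ^ 2 - (-m)) := by ring
        rw [e]
        exact dvd_add (dvd_mul_right _ _) hs3
    · exact ⟨s, key s h hs3⟩
  have hnsq : ¬ IsSquare (((-m : ℤ)) : ℚ) := by
    intro h
    obtain ⟨k, hk⟩ := Rat.isSquare_intCast_iff.1 h
    have h1 : (k * k) % 8 = 7 := by omega
    have h2 : k % 8 = 0 ∨ k % 8 = 1 ∨ k % 8 = 2 ∨ k % 8 = 3 ∨ k % 8 = 4 ∨ k % 8 = 5 ∨
      k % 8 = 6 ∨ k % 8 = 7 := by omega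
    rcases h2 with h2 | h2 | h2 | h2 | h2 | h2 | h2 | h2 <;>
      · rw [Int.mul_emod, h2] at h1
        norm_num at h1
  have hpos : (0 : ℤ) < ((2 * β * p : ℕ) : ℤ) := by
    have : 0 < β := by omega
    have := hp.pos
    positivity
  have hco : IsCoprime ((2 * β * p : ℕ) : ℤ) (-m) := by
    refine IsCoprime.neg_right ?_
    have h1 : Nat.Coprime (2 * β * p) n := by
      rw [Nat.Coprime, hpβ.gcd_eq, Nat.gcd_one_left]
    rw [Int.isCoprime_iff_gcd_eq_one, Int.gcd, Int.natAbs_natCast]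
    exact h1
  have hs0 : (-m) ∣ (1 : ℤ) ^ 2 - ((2 * β * p : ℕ) : ℤ) := by
    rw [neg_dvd]
    have h1 := (Int.modEq_iff_dvd).1 hpZ
    rw [one_pow]
    exact (Int.natAbs_dvd.1 h1)
  obtain ⟨x, z, hxz⟩ := conic_ratI hpos (neg_ne_zero.2 hm0) hco hs0 ht hnsq
  refine ⟨p, hp, hp8, x, z, ?_, ?_⟩
  · rintro rfl
    have h1 : IsSquare (((2 * β * p : ℕ) : ℚ)) := ⟨x, by
      have : (((2 * β * p : ℕ) : ℤ) : ℚ) = ((2 * β * p : ℕ) : ℚ) := Int.cast_natCast _
      rw [← this, hxz]; ring⟩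
    obtain ⟨k, hk⟩ := Rat.isSquare_natCast_iff.1 h1
    have h2 : (2 * β * p) % 4 = 2 := by
      obtain ⟨i, hi⟩ := hβodd.mul hpodd
      rw [mul_assoc, hi]; omega
    have h3 : k % 4 = 0 ∨ k % 4 = 1 ∨ k % 4 = 2 ∨ k % 4 = 3 := by omega
    rw [hk] at h2
    rcases h3 with h3 | h3 | h3 | h3 <;> · rw [Nat.mul_mod, h3] at h2; norm_num at h2
  · push_cast at hxz
    linarith

theorem exists_rep {c d : ℕ} (hc : c % 2 = 1) (hd : d % 2 = 1)
    (h3 : ∀ q : ℕ, q.Prime → (q % 8 = 3 ∨ q % 8 = 5) → ¬ q ∣ c)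
    (h4 : ∀ q : ℕ, q.Prime → q ∣ d → q % 4 = 1) {y : ℚ} (hy0 : y ≠ 0)
    (h2y : 2 ≤ padicValRat 2 y)
    (hy : ∀ q : ℕ, q.Prime → q % 8 = 5 → q ∣ d → 1 ≤ padicValRat q y) :
    ∃ u v w : ℚ, y ^ 2 - 2 = 2 * u ^ 2 + (c / d) * (v ^ 2 - 2 * w ^ 2) := by
  have hd0 : d ≠ 0 := by omega
  have hc0 : c ≠ 0 := by omega
  obtain ⟨β, hβ4, hβsq, hβe, hβd⟩ := exists_beta hd0 h4
  -- divisibility of the numerator
  have hnum : ∀ (q : ℕ), q.Prime → ∀ k : ℕ, 1 ≤ k → (k : ℤ) ≤ padicValRat q y →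
      q ^ k ∣ y.num.natAbs := by
    intro q hq k hk h
    have : Fact q.Prime := ⟨hq⟩
    have h5 : padicValRat q y = padicValNat q y.num.natAbs - padicValNat q y.den := rfl
    refine (padicValNat_dvd_iff_le (Int.natAbs_ne_zero.2 (Rat.num_ne_zero.2 hy0))).2 ?_
    rw [h5] at h
    omega
  have h4Y : 4 ∣ y.num := by
    have h5 := hnum 2 Nat.prime_two 2 (by norm_num) (by exact_mod_cast h2y)
    rw [← Int.natCast_dvd] at h5
    exact_mod_cast h5
  obtain ⟨Y, hY⟩ := h4Y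
  set Z : ℤ := (y.den : ℤ) with hZdef
  have hcop : IsCoprime y.num Z := by
    rw [Int.isCoprime_iff_gcd_eq_one, Int.gcd, hZdef, Int.natAbs_natCast]
    exact y.reduced
  have hZodd : Z % 2 = 1 := by
    by_contra hcon
    have h5 : (2 : ℤ) ∣ Z := by omega
    have h6 : (2 : ℤ) ∣ y.num := by rw [hY]; exact ⟨2 * Y, by ring⟩
    have h7 := hcop.isUnit_of_dvd' h6 h5
    exact absurd (Int.isUnit_iff.1 h7) (by norm_num)
  have hβY : (β : ℤ) ∣ Y := by
    have h5 : β ∣ y.num.natAbs := hβd _ (fun q hq h8 hqd => by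
      have := hnum q hq 1 le_rfl (by exact_mod_cast hy q hq h8 hqd)
      rwa [pow_one] at this)
    have h6 : (β : ℤ) ∣ 4 * Y := by rw [← hY]; exact Int.natCast_dvd.2 h5
    have h7 : IsCoprime (β : ℤ) 4 := by
      have h8 : Nat.Coprime β 4 := by
        rw [show (4 : ℕ) = 2 ^ 2 by norm_num]
        exact (Nat.coprime_two_right.2 (Nat.odd_iff.2 (by omega))).pow_right 2
      exact_mod_cast Nat.isCoprime_iff_coprime.2 h8
    exact h7.dvd_of_dvd_mul_left h6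
  have hβZ : IsCoprime (β : ℤ) Z := by
    refine IsCoprime.of_isCoprime_of_dvd_left hcop ?_
    rw [hY]
    exact hβY.mul_left 4
  set m : ℤ := Z ^ 2 - 8 * Y ^ 2 with hm
  have hm8 : m % 8 = 1 := by
    have h5 : Z ^ 2 % 8 = 1 := by
      have h6 : Z % 8 = 1 ∨ Z % 8 = 3 ∨ Z % 8 = 5 ∨ Z % 8 = 7 := by omega
      rcases h6 with h6 | h6 | h6 | h6 <;> · rw [pow_two, Int.mul_emod, h6]; norm_num
    rw [hm]; omega
  obtain ⟨p, hp, hp8, x, z, hz0, hxz⟩ := exists_aux hβ4 hβsq hm8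
    (by
      have e : m - Z ^ 2 = Y * (-(8 * Y)) := by rw [hm]; ring
      rw [e]; exact hβY.mul_right _) hβZ
  have hZ0 : (Z : ℚ) ≠ 0 := by
    rw [hZdef, Int.cast_natCast]; exact_mod_cast y.den_ne_zero
  have hy' : y = 4 * Y / Z := by
    have h5 : y = y.num / y.den := (Rat.num_div_den y).symm
    rw [h5, hY, hZdef]
    push_cast
    rfl
  have hcq : (c : ℚ) ≠ 0 := by exact_mod_cast hc0
  have hdq : (d : ℚ) ≠ 0 := by exact_mod_cast hd0
  have hpq : (p : ℚ) ≠ 0 := by exact_mod_cast hp.ne_zero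
  -- the norm
  have hN1 : IsN ((β * d : ℕ) : ℚ) :=
    gen_nat (G := IsN) (bad := fun q => q % 8 = 3 ∨ q % 8 = 5) (fun a b => isN_mul)
      (fun a _ => ⟨a, 0, by ring⟩) (fun p hp hb => isN_prime hp hb) _
      (Nat.mul_ne_zero (by omega) hd0) hβe
  have hN2 : IsN (p : ℚ) := isN_prime hp (by omega)
  have hN3 : IsN (c : ℚ) :=
    gen_nat (G := IsN) (bad := fun q => q % 8 = 3 ∨ q % 8 = 5) (fun a b => isN_mul)
      (fun a _ => ⟨a, 0, by ring⟩) (fun p hp hb => isN_prime hp hb) _ hc0 (fun q hq hb => by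
        rw [Nat.factorization_eq_zero_of_not_dvd (h3 q hq hb)]; exact Even.zero)
  have hN4 : IsN (-(2 / (c * z * Z)) ^ 2) := ⟨2 / (c * z * Z), 2 / (c * z * Z), by ring⟩
  obtain ⟨v, w, hvw⟩ := isN_mul (isN_mul (isN_mul hN1 hN2) hN3) hN4
  refine ⟨x / (z * Z), v, w, ?_⟩
  rw [← hvw, hy']
  push_cast
  have hmq : (m : ℚ) = (Z : ℚ) ^ 2 - 8 * (Y : ℚ) ^ 2 := by rw [hm]; push_cast; ring
  rw [hmq] at hxz
  field_simp
  linear_combination 2 * hxz

end Vale.Agent.P027.D5
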