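import Vale.Agent.P027.R5.H788.T5
import Vale.Agent.P027.R4.H788.Points

set_option linter.all false

/-! The relation `D5` and the parity predicate on the even multiples of the point. -/

namespace Vale.Agent.P027.D5

open Vale.Agent.P345 Vale.Agent.P027 Vale.Agent.P027.HT Vale.Agent.P027.D1

theorem d5p_sound {q : ℕ} [hq : Fact q.Prime] (h : q % 8 = 5) {n M : ℤ} (hn : Odd n) (hM : M ≠ 0)
    (hv : padicValRat q (xc (n • P0)) % 4 = 2) (hD : D5P ((2 * n) • P0) ((2 * M) • P0)) :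
    q ∣ (xc ((2 * M) • P0)).den := by
  obtain ⟨Q, r, u, v, w, hQ, hr, hx, he⟩ := hD
  have hn0 : n ≠ 0 := by rintro rfl; exact absurd hn (by decide)
  have hQ0 : Q ≠ 0 := by
    rintro rfl
    rw [add_zero] at hQ
    exact zsmul_P0_ne_zero (by omega) hQ.symm
  have hX := hasX_xc hQ0
  rw [hx] at hX
  have hx0 : -r ^ 2 ≠ 0 := neg_ne_zero.2 (pow_ne_zero 2 hr)
  obtain ⟨y, hy, -⟩ := hX
  have h1 := norm_ge_of_neg_sq (q := q) h hx0 rfl hy
  have hX := hasX_xc hQ0
  rw [hx] at hX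
  have h2 := hasX_two_smul hX hx0
  rw [hQ] at h2
  have h3 := norm_double h h1
  rw [← xc_of_hasX h2] at h3
  have h4 := norm_two_pow (q := q) h hn 1
  rw [pow_one] at h4
  rw [h4] at h3
  rw [pn_eq_iff (xc_ne _ hn0) hx0, padicValRat.neg, padicValRat.pow] at h3
  have hodd : Odd (padicValRat q r) := by
    rw [h3] at hv
    rw [Int.odd_iff]
    push_cast at hv
    omega
  have hr1 : 1 ≤ padicNorm q r := by
    rw [padicNorm.neg, pn_sq] at h1
    by_contra hcon
    push Not at hcon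
    have := padicNorm.nonneg (p := q) r
    nlinarith only [h1, this, hcon]
  by_contra hcon
  rw [dvd_den_iff, not_lt] at hcon
  have hz := norm_ge (q := q) h (n := 2 * M) (by omega)
  exact d5_sound h hr hodd (le_antisymm hcon hz) hr1 he

theorem val_neg_of_dvd {q : ℕ} [hq : Fact q.Prime] {x : ℚ} (h : q ∣ x.den) :
    padicValRat q x = -(padicValNat q x.den : ℤ) := by
  have h1 : padicValRat q x = padicValNat q x.num.natAbs - padicValNat q x.den := rfl
  have h2 : padicValNat q x.num.natAbs = 0 := by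
    refine padicValNat.eq_zero_of_not_dvd (fun h3 => ?_)
    have h4 := Nat.dvd_gcd h3 h
    rw [x.reduced.gcd_eq_one] at h4
    exact hq.out.one_lt.ne' (Nat.dvd_one.1 h4)
  rw [h1, h2]
  simp

theorem d5p_complete {n M : ℤ} (hn : Odd n) (hM : M ≠ 0) (hd : n ∣ M) :
    D5P ((2 * n) • P0) ((2 * M) • P0) := by
  obtain ⟨c, d, hcd⟩ := oddForm_of_hasX hn (hasX_odd hn)
  obtain ⟨a, -, ha⟩ := exists_BType hcd.c_pos hcd.d_pos hcd.cop (hcd.eq ▸ hcd.hasX)
  have hn0 : n ≠ 0 := by rintro rfl; exact absurd hn (by decide)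
  have hc0 : (c : ℚ) ≠ 0 := by exact_mod_cast hcd.c_pos.ne'
  have hd0 : (d : ℚ) ≠ 0 := by exact_mod_cast hcd.d_pos.ne'
  have hz0 : xc ((2 * M) • P0) ≠ 0 := xc_ne _ (by omega)
  have hr0 : (c : ℚ) / d ≠ 0 := div_ne_zero hc0 hd0
  have hx : xc (n • P0) = -((c : ℚ) / d) ^ 2 := by rw [hcd.eq, div_pow]
  have hcopq : ∀ q : ℕ, q.Prime → q ∣ d → ¬ q ∣ c := by
    intro q hq h1 h2
    have h3 := Nat.dvd_gcd h2 h1
    rw [hcd.cop.gcd_eq_one] at h3
    exact hq.one_lt.ne' (Nat.dvd_one.1 h3)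
  have hvr : ∀ q : ℕ, q.Prime → padicValRat q ((c : ℚ) / d) = padicValNat q c - padicValNat q d := by
    intro q hq
    have : Fact q.Prime := ⟨hq⟩
    rw [padicValRat.div hc0 hd0, padicValRat.of_nat, padicValRat.of_nat]
  have a1 : ∀ q : ℕ, q.Prime → (q % 8 = 3 ∨ q % 8 = 5) → ¬ q ∣ c := by
    -- primes dividing the numerator
    intro q hq h35 hqc
    have : Fact q.Prime := ⟨hq⟩
    have hq2 : q ≠ 2 := by omega
    have hqd : ¬ q ∣ d := fun h => hcopq q hq h hqc
    have hc' : (c : ZMod q) = 0 := by rw [ZMod.natCast_eq_zero_iff]; exact hqc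
    have hd' : (d : ZMod q) ≠ 0 := by rw [Ne, ZMod.natCast_eq_zero_iff]; exact hqd
    have h5 : (2 : ZMod q) * (d : ZMod q) ^ 4 = (c : ZMod q) ^ 4 + (a : ZMod q) ^ 2 := by
      exact_mod_cast congrArg (fun n : ℕ => (n : ZMod q)) ha
    rw [hc'] at h5
    have h6 : IsSquare (2 : ZMod q) := by
      refine ⟨(a : ZMod q) / (d : ZMod q) ^ 2, ?_⟩
      field_simp
      linear_combination h5
    have h7 := (ZMod.exists_sq_eq_two_iff hq2).1 h6
    omega
  have a2 : ∀ q : ℕ, q.Prime → q ∣ d → q % 4 = 1 := by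
    -- primes dividing the denominator
    intro q hq hqd
    have : Fact q.Prime := ⟨hq⟩
    have hqc := hcopq q hq hqd
    have hc' : (c : ZMod q) ≠ 0 := by rw [Ne, ZMod.natCast_eq_zero_iff]; exact hqc
    have hd' : (d : ZMod q) = 0 := by rw [ZMod.natCast_eq_zero_iff]; exact hqd
    have h5 : (2 : ZMod q) * (d : ZMod q) ^ 4 = (c : ZMod q) ^ 4 + (a : ZMod q) ^ 2 := by
      exact_mod_cast congrArg (fun n : ℕ => (n : ZMod q)) ha
    rw [hd'] at h5
    have h6 : IsSquare (-1 : ZMod q) := by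
      refine ⟨(a : ZMod q) / (c : ZMod q) ^ 2, ?_⟩
      field_simp
      linear_combination h5
    have h7 := (ZMod.exists_sq_eq_neg_one_iff (p := q)).1 h6
    have h8 := hq.eq_two_or_odd
    have h9 : q ≠ 2 := by
      rintro rfl
      have := hcd.d_odd
      omega
    omega
  have a3 : 2 ≤ padicValRat 2 ((c : ℚ) / d / xc ((2 * M) • P0)) := by
    -- two-adic valuation
    have : Fact (Nat.Prime 2) := ⟨Nat.prime_two⟩
    rw [padicValRat.div hr0 hz0, val_two hM, hvr 2 Nat.prime_two,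
      padicValNat.eq_zero_of_not_dvd (p := 2) (n := c) (by have := hcd.c_odd; omega),
      padicValNat.eq_zero_of_not_dvd (p := 2) (n := d) (by have := hcd.d_odd; omega)]
    push_cast
    omega
  have a4 : ∀ q : ℕ, q.Prime → q % 8 = 5 → q ∣ d →
      1 ≤ padicValRat q ((c : ℚ) / d / xc ((2 * M) • P0)) := by
    -- five modulo eight
    intro q hq h5 hqd
    have : Fact q.Prime := ⟨hq⟩
    have hqc := hcopq q hq hqd
    have h1 := hvr q hq
    rw [padicValNat.eq_zero_of_not_dvd hqc] at h1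
    have h2 : 1 ≤ padicValNat q d := one_le_padicValNat_of_dvd hcd.d_pos.ne' hqd
    have h3 : padicValRat q (xc (n • P0)) = 2 * padicValRat q ((c : ℚ) / d) := by
      rw [hx, padicValRat.neg, padicValRat.pow]
      norm_num
    have h4 : q ∣ (xc (n • P0)).den := by
      by_contra hcon
      have h6 : padicValRat q (xc (n • P0)) =
          padicValNat q (xc (n • P0)).num.natAbs - padicValNat q (xc (n • P0)).den := rfl
      rw [padicValNat.eq_zero_of_not_dvd hcon, Nat.cast_zero, sub_zero] at h6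
      have h7 : 0 ≤ padicValRat q (xc (n • P0)) := by
        rw [h6]; exact Int.natCast_nonneg _
      have h8 : (1 : ℤ) ≤ (padicValNat q d : ℤ) := by exact_mod_cast h2
      rw [h3, h1, Nat.cast_zero, zero_sub] at h7
      linarith
    have h6 : (xc (n • P0)).den ∣ (xc ((2 * M) • P0)).den := by
      obtain ⟨t, rfl⟩ := hd
      have e : (2 * (n * t)) • P0 = (2 * t) • (n • P0) := by
        rw [← mul_zsmul]; congr 1; ring
      rw [e]
      refine den_dvd_smul (zsmul_P0_ne_zero hn0) ?_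
      rw [← e]
      exact zsmul_P0_ne_zero (mul_ne_zero two_ne_zero hM)
    have h7 := val_neg_of_dvd h4
    have h8 := val_neg_of_dvd (h4.trans h6)
    have h9 : padicValNat q (xc (n • P0)).den ≤ padicValNat q (xc ((2 * M) • P0)).den := by
      rw [← padicValNat_dvd_iff_le (xc ((2 * M) • P0)).den_ne_zero]
      exact pow_padicValNat_dvd.trans h6
    rw [padicValRat.div hr0 hz0]
    rw [h3] at h7
    rw [h8]
    omega
  obtain ⟨u, v, w, huvw⟩ := exists_rep hcd.c_odd hcd.d_odd a1 a2 (div_ne_zero hr0 hz0) a3 a4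
  refine ⟨n • P0, (c : ℚ) / d, u, v, w, ?_, hr0, hx, huvw⟩
  rw [← add_zsmul]; congr 1; ring

/-! ### The parity predicate -/

theorem sq_even {k : ℤ} (hk : k ≠ 0) : ∃ s : ℚ, s ^ 2 = xc ((2 * k) • P0) := by
  obtain ⟨y, hy, hP⟩ := hasX_xc (zsmul_P0_ne_zero hk)
  have hy0 : y ≠ 0 := by
    rintro rfl
    have h1 : xc (k • P0) * (xc (k • P0) ^ 2 - 2) = 0 := by linear_combination -hy
    rcases mul_eq_zero.1 h1 with h2 | h2
    · exact xc_ne _ hk h2
    · exact not_isSquare_two ⟨xc (k • P0), by linear_combination -h2⟩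
  have h1 := hasX_double hy hy0
  rw [← hP] at h1
  have e : k • P0 + k • P0 = (2 * k) • P0 := by rw [← add_zsmul]; congr 1; ring
  rw [e] at h1
  exact ⟨_, (xc_of_hasX h1).symm⟩

theorem p5_sound {C : ℕ} (hC : 0 < C) {N : ℤ} (hN : N ≠ 0) (h : P5P C ((2 * N) • P0)) {q : ℕ}
    [hq : Fact q.Prime] (h5 : q % 8 = 5) :
    (padicValRat q (xc ((2 * (C * N)) • P0)) + padicValRat q (xc ((2 * C : ℤ) • P0))) % 4 = 0 := by
  obtain ⟨s, t, hs, ht, hL⟩ := h
  rw [nsmul_ev] at hs
  have hC0 : (C : ℤ) ≠ 0 := by exact_mod_cast hC.ne'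
  have h1 : xc ((2 * (C * N)) • P0) ≠ 0 := xc_ne _ (mul_ne_zero two_ne_zero (mul_ne_zero hC0 hN))
  have h2 : xc ((2 * C : ℤ) • P0) ≠ 0 := xc_ne _ (mul_ne_zero two_ne_zero hC0)
  have hs0 : s ≠ 0 := by
    rintro rfl
    exact h1 (by rw [← hs]; norm_num)
  have ht0 : t ≠ 0 := by
    rintro rfl
    exact h2 (by rw [← ht]; norm_num)
  have h3 := even_of_lam h5 (mul_ne_zero hs0 ht0) hL
  rw [padicValRat.mul hs0 ht0, Int.even_iff] at h3
  rw [← hs, ← ht, padicValRat.pow, padicValRat.pow]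
  push_cast
  omega

theorem p5_complete {C : ℕ} (hC : Odd C) {N : ℤ} (hN : D1.IsP N) : P5P C ((2 * N) • P0) := by
  have hC0 : (C : ℤ) ≠ 0 := by
    have := hC.pos
    exact_mod_cast this.ne'
  have hN0 : N ≠ 0 := by
    rcases hN.eq with h | h
    · rw [h]; positivity
    · rw [h]; simp
  obtain ⟨s, hs⟩ := sq_even (mul_ne_zero hC0 hN0)
  obtain ⟨t, ht⟩ := sq_even hC0
  have h1 : xc ((2 * (C * N)) • P0) ≠ 0 := xc_ne _ (mul_ne_zero two_ne_zero (mul_ne_zero hC0 hN0))
  have h2 : xc ((2 * C : ℤ) • P0) ≠ 0 := xc_ne _ (mul_ne_zero two_ne_zero hC0)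
  have hs0 : s ≠ 0 := by
    rintro rfl
    exact h1 (by rw [← hs]; norm_num)
  have ht0 : t ≠ 0 := by
    rintro rfl
    exact h2 (by rw [← ht]; norm_num)
  refine ⟨s, t, by rw [nsmul_ev]; exact hs, ht, ?_⟩
  refine lam_of_even (mul_ne_zero hs0 ht0) (fun q hq h5 => ?_)
  have : Fact q.Prime := ⟨hq⟩
  have hCo : Odd (C : ℤ) := by exact_mod_cast hC
  have h3 := val_two_pow5 (q := q) h5 hCo 1
  rw [pow_one] at h3
  have h4 : padicValRat q (xc ((2 * (C * N)) • P0)) = padicValRat q (xc ((C : ℤ) • P0)) := by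
    obtain ⟨k, hk | hk⟩ := hN
    · have e : 2 * ((C : ℤ) * N) = 2 ^ (k + 1) * C := by rw [hk]; ring
      rw [e]
      exact val_two_pow5 h5 hCo (k + 1)
    · have e : 2 * ((C : ℤ) * N) = -(2 ^ (k + 1) * C) := by rw [hk]; ring
      rw [e, neg_zsmul, xc_neg]
      exact val_two_pow5 h5 hCo (k + 1)
  rw [← hs, padicValRat.pow] at h4
  rw [← ht, padicValRat.pow] at h3
  push_cast at h3 h4
  rw [padicValRat.mul hs0 ht0]
  exact ⟨padicValRat q s, by omega⟩

end Vale.Agent.P027.D5
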