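import Vale.Agent.P027.R4.H788.ModFour

set_option linter.all false

/-! Norms from quadratic fields with discriminants eight and minus eight. -/

namespace Vale.Agent.P027.D5

open Vale.Agent.P345 Vale.Agent.P027

/-- `t` is a value of `v ^ 2 - 2 w ^ 2` -/
def IsN (t : ℚ) : Prop := ∃ v w : ℚ, t = v ^ 2 - 2 * w ^ 2

/-- `t` is a value of `(a ^ 2 - 2 b ^ 2) (c ^ 2 + 2 d ^ 2)` -/
def Lam (t : ℚ) : Prop := ∃ a b c d : ℚ, t = (a ^ 2 - 2 * b ^ 2) * (c ^ 2 + 2 * d ^ 2)

section gen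

variable {G : ℚ → Prop} {bad : ℕ → Prop}

theorem gen_nat (hm : ∀ a b, G a → G b → G (a * b)) (hs : ∀ a : ℚ, a ≠ 0 → G (a ^ 2))
    (hg : ∀ p : ℕ, p.Prime → ¬ bad p → G p) (n : ℕ) : n ≠ 0 →
    (∀ q : ℕ, q.Prime → bad q → Even (n.factorization q)) → G n := by
  have h1 : G 1 := by
    have := hs 1 one_ne_zero
    rwa [one_pow] at this
  induction n using Nat.recOnPosPrimePosCoprime with
  | prime_pow p k hp hk =>
    intro _ h
    by_cases hb : bad p
    · have h2 := h p hp hb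
      rw [hp.factorization_pow, Finsupp.single_eq_same] at h2
      obtain ⟨j, hj⟩ := h2
      have h3 : ((p ^ k : ℕ) : ℚ) = ((p : ℚ) ^ j) ^ 2 := by
        rw [hj, Nat.cast_pow, ← two_mul, mul_comm, pow_mul]
      rw [h3]
      exact hs _ (pow_ne_zero _ (by exact_mod_cast hp.ne_zero))
    · have h2 := hg p hp hb
      clear h hk
      induction k with
      | zero => simpa using h1
      | succ k ih =>
        have h3 : ((p ^ (k + 1) : ℕ) : ℚ) = ((p ^ k : ℕ) : ℚ) * p := by push_cast; ring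
        rw [h3]
        exact hm _ _ (ih (pow_ne_zero k hp.ne_zero)) h2
  | zero => intro h; exact absurd rfl h
  | one => intro _ _; simpa using h1
  | coprime a b ha hb hab iha ihb =>
    intro _ h
    have ha0 : a ≠ 0 := by omega
    have hb0 : b ≠ 0 := by omega
    have h3 : ((a * b : ℕ) : ℚ) = (a : ℚ) * b := by push_cast; ring
    have h4 : ∀ q : ℕ, a.factorization q = 0 ∨ b.factorization q = 0 := by
      intro q
      by_contra hcon
      push Not at hcon
      have h5 : q ∣ a := Nat.dvd_of_factorization_pos hcon.1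
      have h6 : q ∣ b := Nat.dvd_of_factorization_pos hcon.2
      have h7 := Nat.dvd_gcd h5 h6
      rw [hab.gcd_eq_one] at h7
      have h8 : q = 1 := Nat.dvd_one.1 h7
      subst h8
      exact hcon.1 (Nat.factorization_one_right a)
    rw [h3]
    refine hm _ _ (iha ha0 fun q hq hbad => ?_) (ihb hb0 fun q hq hbad => ?_)
    · have h5 := h q hq hbad
      rw [Nat.factorization_mul ha0 hb0, Finsupp.add_apply] at h5
      rcases h4 q with h6 | h6
      · rw [h6]; exact Even.zero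
      · rw [h6, add_zero] at h5; exact h5
    · have h5 := h q hq hbad
      rw [Nat.factorization_mul ha0 hb0, Finsupp.add_apply] at h5
      rcases h4 q with h6 | h6
      · rw [h6, zero_add] at h5; exact h5
      · rw [h6]; exact Even.zero

theorem gen_rat (hm : ∀ a b, G a → G b → G (a * b)) (hs : ∀ a : ℚ, a ≠ 0 → G (a ^ 2))
    (hneg : G (-1)) (hg : ∀ p : ℕ, p.Prime → ¬ bad p → G p) {t : ℚ} (ht : t ≠ 0)
    (h : ∀ q : ℕ, q.Prime → bad q → Even (padicValRat q t)) : G t := by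
  have hn0 : t.num.natAbs ≠ 0 := by
    rw [Int.natAbs_ne_zero]; exact Rat.num_ne_zero.2 ht
  have hd0 : t.den ≠ 0 := t.den_ne_zero
  have h1 : G ((t.num.natAbs * t.den : ℕ) : ℚ) := by
    refine gen_nat hm hs hg _ (Nat.mul_ne_zero hn0 hd0) (fun q hq hb => ?_)
    have : Fact q.Prime := ⟨hq⟩
    have h2 := h q hq hb
    rw [Nat.factorization_mul hn0 hd0, Finsupp.add_apply, Nat.factorization_def _ hq,
      Nat.factorization_def _ hq]
    have h3 : padicValRat q t = padicValNat q t.num.natAbs - padicValNat q t.den := rfl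
    rw [h3] at h2
    rw [Int.even_iff] at h2
    rw [Nat.even_iff]
    omega
  have hdq : (t.den : ℚ) ≠ 0 := by exact_mod_cast hd0
  have h2 : G (((t.den : ℚ)⁻¹) ^ 2) := hs _ (inv_ne_zero hdq)
  have h3 := hm _ _ h1 h2
  have h5 : t = t.num / t.den := (Rat.num_div_den t).symm
  rcases Int.natAbs_eq t.num with h4 | h4
  · have h6 : (t.num : ℚ) = ((t.num.natAbs : ℕ) : ℚ) := by
      have h7 := congrArg (Int.cast : ℤ → ℚ) h4
      rw [Int.cast_natCast] at h7
      exact h7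
    have e : t = ((t.num.natAbs * t.den : ℕ) : ℚ) * ((t.den : ℚ)⁻¹) ^ 2 := by
      rw [Nat.cast_mul, ← h6]
      nth_rw 1 [h5]
      field_simp
    rw [e]; exact h3
  · have h6 : (t.num : ℚ) = -((t.num.natAbs : ℕ) : ℚ) := by
      have h7 := congrArg (Int.cast : ℤ → ℚ) h4
      rw [Int.cast_neg, Int.cast_natCast] at h7
      exact h7
    have h8 : ((t.num.natAbs : ℕ) : ℚ) = -(t.num : ℚ) := by rw [h6, neg_neg]
    have e : t = -1 * (((t.num.natAbs * t.den : ℕ) : ℚ) * ((t.den : ℚ)⁻¹) ^ 2) := by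
      rw [Nat.cast_mul, h8]
      nth_rw 1 [h5]
      field_simp
    rw [e]; exact hm _ _ hneg h3

end gen

theorem isN_mul {a b : ℚ} (ha : IsN a) (hb : IsN b) : IsN (a * b) := by
  obtain ⟨v, w, rfl⟩ := ha
  obtain ⟨v', w', rfl⟩ := hb
  exact ⟨v * v' + 2 * w * w', v * w' + w * v', by ring⟩

theorem isM_mul {a b c d a' b' c' d' : ℚ} : (c ^ 2 + 2 * d ^ 2) * (c' ^ 2 + 2 * d' ^ 2) =
    (c * c' - 2 * d * d') ^ 2 + 2 * (c * d' + d * c') ^ 2 := by ring

theorem lam_mul {x y : ℚ} (hx : Lam x) (hy : Lam y) : Lam (x * y) := by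
  obtain ⟨a, b, c, d, rfl⟩ := hx
  obtain ⟨a', b', c', d', rfl⟩ := hy
  exact ⟨a * a' + 2 * b * b', a * b' + b * a', c * c' - 2 * d * d', c * d' + d * c', by ring⟩

theorem isN_lam {a : ℚ} (h : IsN a) : Lam a := by
  obtain ⟨v, w, rfl⟩ := h
  exact ⟨v, w, 1, 0, by ring⟩

theorem isN_prime {p : ℕ} (hp : p.Prime) (h : ¬ (p % 8 = 3 ∨ p % 8 = 5)) : IsN p := by
  by_cases h2 : p = 2
  · subst h2
    exact ⟨2, 1, by norm_num⟩
  have : Fact p.Prime := ⟨hp⟩
  have hodd := hp.eq_two_or_odd.resolve_left h2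
  have h3 : IsSquare (2 : ZMod p) := (ZMod.exists_sq_eq_two_iff h2).2 (by omega)
  obtain ⟨c, hc⟩ := h3
  obtain ⟨s, rfl⟩ := ZMod.intCast_surjective c
  have h4 : ((p : ℕ) : ℤ) ∣ s ^ 2 - 2 := by
    rw [← ZMod.intCast_zmod_eq_zero_iff_dvd]
    push_cast
    rw [hc]; ring
  obtain ⟨x, z, hxz⟩ := conic_ratI (α := ((p : ℕ) : ℤ)) (β := 2) (s := 1) (t := s)
    (by exact_mod_cast hp.pos) (by norm_num)
    (by
      have : Nat.Coprime p 2 := by
        rw [Nat.coprime_primes hp Nat.prime_two]; exact h2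
      exact_mod_cast Nat.isCoprime_iff_coprime.2 this)
    (by omega) h4 not_isSquare_two'
  exact ⟨x, z, by simpa using hxz⟩

theorem isM_prime {p : ℕ} (hp : p.Prime) (h : p % 8 = 3) : ∃ c d : ℚ, (p : ℚ) = c ^ 2 + 2 * d ^ 2 := by
  have h2 : p ≠ 2 := by omega
  have : Fact p.Prime := ⟨hp⟩
  have h3 : IsSquare (-2 : ZMod p) := (ZMod.exists_sq_eq_neg_two_iff h2).2 (by omega)
  obtain ⟨c, hc⟩ := h3
  obtain ⟨s, rfl⟩ := ZMod.intCast_surjective c
  have h4 : ((p : ℕ) : ℤ) ∣ s ^ 2 - (-2) := by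
    rw [← ZMod.intCast_zmod_eq_zero_iff_dvd]
    push_cast
    rw [hc]; ring
  obtain ⟨x, z, hxz⟩ := conic_ratI (α := ((p : ℕ) : ℤ)) (β := -2) (s := 1) (t := s)
    (by exact_mod_cast hp.pos) (by norm_num)
    (by
      have : Nat.Coprime p 2 := by
        rw [Nat.coprime_primes hp Nat.prime_two]; exact h2
      exact (Nat.isCoprime_iff_coprime.2 this).neg_right)
    (by
      have h5 := hp.eq_two_or_odd.resolve_left h2
      exact ⟨((p : ℕ) : ℤ) / 2, by omega⟩) h4 (not_isSquare_neg (by norm_num))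
  exact ⟨x, z, by push_cast at hxz; linarith⟩

theorem isN_of_even {t : ℚ} (ht : t ≠ 0) (h : ∀ q : ℕ, q.Prime → (q % 8 = 3 ∨ q % 8 = 5) →
    Even (padicValRat q t)) : IsN t := by
  refine gen_rat (G := IsN) (bad := fun q => q % 8 = 3 ∨ q % 8 = 5) (fun a b => isN_mul)
    (fun a _ => ⟨a, 0, by ring⟩) ⟨1, 1, by norm_num⟩ (fun p hp hb => isN_prime hp hb) ht h

theorem lam_of_even {t : ℚ} (ht : t ≠ 0) (h : ∀ q : ℕ, q.Prime → q % 8 = 5 →
    Even (padicValRat q t)) : Lam t := by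
  refine gen_rat (G := Lam) (bad := fun q => q % 8 = 5) (fun a b => lam_mul)
    (fun a _ => ⟨a, 0, 1, 0, by ring⟩) ⟨1, 1, 1, 0, by norm_num⟩ (fun p hp hb => ?_) ht h
  by_cases h3 : p % 8 = 3
  · obtain ⟨c, d, hcd⟩ := isM_prime hp h3
    exact ⟨1, 0, c, d, by rw [hcd]; ring⟩
  · exact isN_lam (isN_prime hp (by omega))

/-! ### Soundness -/

theorem NR_neg_two {q : ℕ} [hq : Fact q.Prime] (h : q % 8 = 5) : NR q (-2) := by
  have h1 : ¬ IsSquare ((-2 : ℤ) : ZMod q) := by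
    have hq2 : q ≠ 2 := by omega
    have := (ZMod.exists_sq_eq_neg_two_iff hq2).not.2 (by omega)
    simpa using this
  have := NR_of_int h1
  exact_mod_cast this

theorem even_of_norm_sq {q : ℕ} [hq : Fact q.Prime] {t ρ : ℚ} (ht : t ≠ 0)
    (h : padicNorm q t = padicNorm q ρ ^ 2) : Even (padicValRat q t) := by
  have hρ : ρ ≠ 0 := by
    rintro rfl
    rw [padicNorm.zero] at h
    have := pn_pos (q := q) ht
    rw [h] at this
    norm_num at this
  rw [← pn_sq, pn_eq_iff ht (pow_ne_zero 2 hρ), padicValRat.pow] at h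
  rw [h]
  exact ⟨padicValRat q ρ, by push_cast; ring⟩

theorem even_of_lam {q : ℕ} [hq : Fact q.Prime] (h : q % 8 = 5) {t : ℚ} (ht : t ≠ 0)
    (hl : Lam t) : Even (padicValRat q t) := by
  obtain ⟨a, b, c, d, rfl⟩ := hl
  obtain ⟨h1, h2⟩ := mul_ne_zero_iff.1 ht
  obtain ⟨ρ, hρ⟩ := (NR_two (q := q) (Or.inr h)).norm_form' a b
  obtain ⟨σ, hσ⟩ := (NR_neg_two h).norm_form' c d
  have e : c ^ 2 - -2 * d ^ 2 = c ^ 2 + 2 * d ^ 2 := by ring
  rw [e] at hσ
  rw [padicValRat.mul h1 h2]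
  exact (even_of_norm_sq h1 hρ).add (even_of_norm_sq h2 hσ)

end Vale.Agent.P027.D5
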