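import Vale.Agent.P027.R5.H788.Cm

set_option linter.all false

/-! Primes that are five modulo eight: doubling preserves the norm of the first coordinate. -/

namespace Vale.Agent.P027.D5

open Vale.Agent.P345 Vale.Agent.P027 Vale.Agent.P027.HT Vale.Agent.P027.D1

section norm

variable {q : ℕ} [hq : Fact q.Prime]

theorem norm_ge_of_neg_sq (h : q % 8 = 5) {x s y : ℚ} (hx : x ≠ 0) (hs : x = -s ^ 2)
    (hy : y ^ 2 = x ^ 3 - 2 * x) : 1 ≤ padicNorm q x := by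
  have hs0 : s ≠ 0 := by
    rintro rfl
    exact hx (by rw [hs]; norm_num)
  have e : x ^ 2 = -((y / s) ^ 2 - 2 * 1 ^ 2) := by
    rw [div_pow, hy]
    have h2 : s ^ 2 = -x := by rw [hs]; ring
    rw [h2]
    field_simp
    ring
  have h1 := (NR_two (q := q) (Or.inr h)).norm_form (y / s) 1
  have h2 : padicNorm q x ^ 2 = max (padicNorm q (y / s) ^ 2) (padicNorm q 1 ^ 2) := by
    rw [← pn_sq, e, padicNorm.neg, h1]
  have h3 : 1 ≤ padicNorm q x ^ 2 := by
    rw [h2, padicNorm.one, one_pow]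
    exact le_max_right _ _
  have h4 := padicNorm.nonneg (p := q) x
  by_contra hcon
  push Not at hcon
  nlinarith only [h3, h4, hcon]

theorem norm_double (h : q % 8 = 5) {x : ℚ} (h1 : 1 ≤ padicNorm q x) :
    padicNorm q ((x ^ 2 + 2) ^ 2 / (4 * (x ^ 3 - 2 * x))) = padicNorm q x := by
  have h0 : 0 < padicNorm q x := by linarith
  have hm : max (padicNorm q x ^ 2) (padicNorm q 1 ^ 2) = padicNorm q x ^ 2 := by
    rw [padicNorm.one, one_pow]
    refine max_eq_left ?_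
    nlinarith only [h1]
  have e1 := (NR_two (q := q) (Or.inr h)).norm_form x 1
  have e2 := (NR_neg_two h).norm_form x 1
  rw [hm] at e1 e2
  have e3 : x ^ 2 + 2 = x ^ 2 - (-2) * 1 ^ 2 := by ring
  have e4 : x ^ 3 - 2 * x = x * (x ^ 2 - 2 * 1 ^ 2) := by ring
  have e5 : padicNorm q 4 = 1 := by
    rw [show (4 : ℚ) = 2 * 2 by norm_num, padicNorm.mul, (NR_two (q := q) (Or.inr h)).1, one_mul]
  rw [padicNorm.div, pn_sq, padicNorm.mul, e5, e4, padicNorm.mul, e1, e3, e2]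
  field_simp

theorem norm_ge_odd (h : q % 8 = 5) {n : ℤ} (hn : Odd n) : 1 ≤ padicNorm q (xc (n • P0)) := by
  obtain ⟨c, d, hcd⟩ := oddForm_of_hasX hn (hasX_odd hn)
  obtain ⟨y, hy, -⟩ := hcd.hasX
  have hc0 : (c : ℚ) ≠ 0 := by exact_mod_cast hcd.c_pos.ne'
  have hd0 : (d : ℚ) ≠ 0 := by exact_mod_cast hcd.d_pos.ne'
  refine norm_ge_of_neg_sq h (s := c / d) ?_ ?_ hy
  · rw [hcd.eq]
    exact neg_ne_zero.2 (div_ne_zero (pow_ne_zero 2 hc0) (pow_ne_zero 2 hd0))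
  · rw [hcd.eq, div_pow]

theorem norm_two_pow (h : q % 8 = 5) {n : ℤ} (hn : Odd n) (j : ℕ) :
    padicNorm q (xc ((2 ^ j * n) • P0)) = padicNorm q (xc (n • P0)) := by
  have hn0 : n ≠ 0 := by rintro rfl; exact absurd hn (by decide)
  induction j with
  | zero => rw [pow_zero, one_mul]
  | succ j ih =>
    have h0 : (2 ^ j * n : ℤ) ≠ 0 := mul_ne_zero (by positivity) hn0
    have h1 : 1 ≤ padicNorm q (xc ((2 ^ j * n) • P0)) := by
      rw [ih]; exact norm_ge_odd h hn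
    have hx0 : xc ((2 ^ j * n) • P0) ≠ 0 := by
      intro h2
      rw [h2, padicNorm.zero] at h1
      norm_num at h1
    have h2 := hasX_two_smul (hasX_xc (zsmul_P0_ne_zero h0)) hx0
    have e : (2 ^ (j + 1) * n) • P0 = (2 ^ j * n) • P0 + (2 ^ j * n) • P0 := by
      rw [← add_zsmul]; congr 1; ring
    rw [e, xc_of_hasX h2, norm_double h h1, ih]

theorem exists_odd_part {n : ℤ} (hn : n ≠ 0) : ∃ (j : ℕ) (m : ℤ), Odd m ∧ n = 2 ^ j * m := by
  obtain ⟨m, hm⟩ := (FiniteMultiplicity.exists_eq_pow_mul_and_not_dvd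
    (a := (2 : ℤ)) (b := n) (Int.finiteMultiplicity_iff.2 ⟨by norm_num, hn⟩))
  refine ⟨_, m, ?_, hm.1⟩
  have := hm.2
  rw [← Int.not_even_iff_odd, even_iff_two_dvd]
  exact this

theorem norm_ge (h : q % 8 = 5) {n : ℤ} (hn : n ≠ 0) : 1 ≤ padicNorm q (xc (n • P0)) := by
  obtain ⟨j, m, hm, rfl⟩ := exists_odd_part hn
  rw [norm_two_pow h hm]
  exact norm_ge_odd h hm

theorem xc_ne (n : ℤ) (hn : n ≠ 0) : xc (n • P0) ≠ 0 := by
  have : Fact (Nat.Prime 5) := ⟨by norm_num⟩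
  have h1 := norm_ge (q := 5) (by norm_num) hn
  intro h2
  rw [h2, padicNorm.zero] at h1
  norm_num at h1

theorem val_two_pow5 (h : q % 8 = 5) {n : ℤ} (hn : Odd n) (j : ℕ) :
    padicValRat q (xc ((2 ^ j * n) • P0)) = padicValRat q (xc (n • P0)) := by
  have hn0 : n ≠ 0 := by rintro rfl; exact absurd hn (by decide)
  exact (pn_eq_iff (xc_ne _ (mul_ne_zero (by positivity) hn0)) (xc_ne _ hn0)).1
    (norm_two_pow h hn j)

end norm

/-- the relation `D5` -/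
def D5P (V W : EC.Point) : Prop := ∃ (Q : EC.Point) (r u v w : ℚ), Q + Q = V ∧ r ≠ 0 ∧
  xc Q = -r ^ 2 ∧ (r / xc W) ^ 2 - 2 = 2 * u ^ 2 + r * (v ^ 2 - 2 * w ^ 2)

/-- the parity predicate -/
def P5P (C : ℕ) (V : EC.Point) : Prop := ∃ s t : ℚ, s ^ 2 = xc (C • V) ∧
  t ^ 2 = xc ((2 * C : ℤ) • P0) ∧ Lam (s * t)

/-- soundness of the relation -/
theorem d5_sound {q : ℕ} [hq : Fact q.Prime] (h : q % 8 = 5) {r z u v w : ℚ} (hr : r ≠ 0)
    (hodd : Odd (padicValRat q r)) (hz1 : padicNorm q z = 1) (hr1 : 1 ≤ padicNorm q r)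
    (he : (r / z) ^ 2 - 2 = 2 * u ^ 2 + r * (v ^ 2 - 2 * w ^ 2)) : False := by
  have n2 : padicNorm q 2 = 1 := (NR_two (q := q) (Or.inr h)).1
  have hrgt : 1 < padicNorm q r := by
    rcases hr1.lt_or_eq with h1 | h1
    · exact h1
    · exfalso
      have h2 : padicNorm q r = padicNorm q 1 := by rw [← h1, padicNorm.one]
      rw [pn_eq_iff hr one_ne_zero, padicValRat.one] at h2
      rw [h2] at hodd
      exact absurd hodd (by decide)
  have ha : padicNorm q (r / z) = padicNorm q r := by rw [padicNorm.div, hz1, div_one]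
  have h1 := (NR_two (q := q) (Or.inr h)).norm_form (r / z) u
  rw [ha] at h1
  have h2 : 1 < padicNorm q ((r / z) ^ 2 - 2 * u ^ 2) := by
    rw [h1]
    refine lt_of_lt_of_le ?_ (le_max_left _ _)
    nlinarith only [hrgt]
  obtain ⟨ρ, hρ⟩ := (NR_two (q := q) (Or.inr h)).norm_form' (r / z) u
  obtain ⟨σ, hσ⟩ := (NR_two (q := q) (Or.inr h)).norm_form' v w
  have h3 : padicNorm q ((r / z) ^ 2 - 2 * u ^ 2 - 2) = padicNorm q ((r / z) ^ 2 - 2 * u ^ 2) :=
    pn_sub_left (by rw [n2]; exact h2)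
  have e : (r / z) ^ 2 - 2 * u ^ 2 - 2 = r * (v ^ 2 - 2 * w ^ 2) := by linear_combination he
  rw [e, padicNorm.mul, hρ, hσ] at h3
  have hρ0 : ρ ≠ 0 := by
    rintro rfl
    rw [hρ, padicNorm.zero] at h2
    norm_num at h2
  have hσ0 : σ ≠ 0 := by
    rintro rfl
    rw [padicNorm.zero] at h3
    have := pn_pos (q := q) hρ0
    have h4 : 0 < padicNorm q ρ ^ 2 := by positivity
    rw [← h3] at h4
    norm_num at h4
  rw [← pn_sq, ← pn_sq, ← padicNorm.mul, pn_eq_iff (mul_ne_zero hr (pow_ne_zero 2 hσ0))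
    (pow_ne_zero 2 hρ0), padicValRat.mul hr (pow_ne_zero 2 hσ0), padicValRat.pow,
    padicValRat.pow] at h3
  rw [Int.odd_iff] at hodd
  push_cast at h3
  omega

end Vale.Agent.P027.D5
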